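import Vale.Agent.P153D.Props
import Vale.Agent.P153DC.Cpt

/-!
Equicontinuous sets of distributions are relatively compact.
-/

namespace Vale.Agent.P153DA

open Set TopologicalSpace Vale.Agent.P153D

theorem ala : ALA := by
  intro Ω S h
  choose m C hC using fun K : {K : Compacts ℂ // (K : Set ℂ) ⊆ Ω} => h K.1 K.1.isCompact K.2
  refine ⟨_, P153DC.cpt (Ω := Ω) (n := ⊤) (fun K : {K : Compacts ℂ // (K : Set ℂ) ⊆ Ω} => K.1)
    (fun K => K.2) (fun L hL => ⟨⟨L, hL⟩, le_rfl⟩)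
    (fun K φ => C K * ∑ i ∈ Finset.range (m K + 1), ContDiffMapSupportedIn.seminorm ℝ ℂ ℝ ⊤ K.1 i φ)
    (fun K => Continuous.continuousAt (continuous_const.mul (continuous_finsetSum _ fun i _ =>
      (ContDiffMapSupportedIn.withSeminorms ℝ ℂ ℝ ⊤ K.1).continuous_seminorm i)))
    (fun K => by simp), fun T hT K φ => hC K T hT _ φ.tsupport_subset _ fun i hi x => ?_⟩
  exact (ContDiffMapSupportedIn.norm_iteratedFDeriv_apply_le_seminorm ℝ (f := φ) le_top).trans
    (Finset.single_le_sum (f := fun i => ContDiffMapSupportedIn.seminorm ℝ ℂ ℝ ⊤ K.1 i φ)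
      (fun _ _ => apply_nonneg _ _) (Finset.mem_range.2 (Nat.lt_succ_of_le hi)))

end Vale.Agent.P153DA
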